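import Vale.Agent.P235.H830.Asm

/-!
# LINE XC `[CORE]` (helper337): the inputs of the assembly

`s` is the size of the large grid; `blk k` (64 blocks), `arc k i` (four arcs of the block `k`:
`i = 0` right, `1` bottom, `2` left, `3` top), `rt k i` a cell outside the block next to the arc,
`ln k i` the line from it to the side of the large grid.
-/

namespace Vale.Agent.P235.XC.H337

open SimpleGraph Vale.Agent.P235.H134 Vale.Agent.P235.H56 Vale.Agent.P235.H141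
open Vale.Agent.P235.H830

/-- the side of `Q s` at the end of the line `i`: right and bottom `2`, left `1`, top `0` -/
def sd : Fin 4 → Fin 3 := ![2, 2, 1, 0]

/-- the geometry of the blocks -/
structure Blk (s : ℕ) (blk : Fin 64 → Set (Fin s × Fin s))
    (arc : Fin 64 → Fin 4 → Set (Fin s × Fin s)) (rt : Fin 64 → Fin 4 → Fin s × Fin s)
    (ln : Fin 64 → Fin 4 → Set (Fin s × Fin s)) : Prop where
  disj : ∀ k l, k ≠ l → Disjoint (blk k) (blk l)
  card : ∀ k, 3 ≤ (blk k).ncard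
  rt_arc : ∀ k i, Touch (grid s) {rt k i} (arc k i)
  rt_ln : ∀ k i, rt k i ∈ ln k i
  ln_conn : ∀ k i, ((grid s).induce (ln k i)).Connected
  ln_blk : ∀ k i, Disjoint (ln k i) (blk k)
  ln_disj : ∀ k i j, i ≠ j → Disjoint (ln k i) (ln k j)
  ln_side : ∀ k i, (ln k i ∩ side s (sd i)).Nonempty
  far : ∀ k l, k ≠ l → ∀ T : Set (Fin s × Fin s), T.ncard ≤ 3 → Disjoint T (blk k) →
    Disjoint T (blk l) → ∃ (i : Fin 4) (Z : Set (Fin s × Fin s)),
      ((grid s).induce Z).Connected ∧ rt k i ∈ Z ∧ blk l ⊆ Z ∧ Disjoint Z (blk k) ∧ Disjoint Z T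

/-- **[X1]** -/
def X1Stmt : Prop := ∀ (V : Type) [Finite V] (G : SimpleGraph V) (B : Set V) (N : Fin 3 → Set V)
  (M : Fin 2 → Set V) (x : Fin 4 → V), (∀ i, (G.induce (N i)).Connected) →
    (∀ j, (G.induce (M j)).Connected) → (∀ i j, i ≠ j → Disjoint (N i) (N j)) →
    (∀ i j, i ≠ j → Disjoint (M i) (M j)) → (∀ i j, Disjoint (N i) (M j)) →
    (∀ i, Disjoint (N i) B) → (∀ j, Disjoint (M j) B) → (∀ i j, Touch G (N i) (M j)) →
    x 0 ∈ N 0 → x 1 ∈ N 0 → x 0 ≠ x 1 → x 2 ∈ N 1 → x 3 ∈ N 2 →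
    (∃ P Q : Set V, (G.induce P).Connected ∧ (G.induce Q).Connected ∧ Disjoint P Q ∧
      Disjoint P B ∧ Disjoint Q B ∧ x 0 ∈ P ∧ x 2 ∈ P ∧ x 1 ∈ Q ∧ x 3 ∈ Q) ∨
    ∃ D S : Set V, S.ncard ≤ 3 ∧ M 0 ⊆ D ∧ M 1 ⊆ D ∧ Disjoint D B ∧ (∀ i, x i ∉ D) ∧
      nbr G D ⊆ S ∪ B

/-- **[X5]** a cross at the block `k` gives the minor `K` (`= TX r`) -/
def X5At {X : Type} (K : SimpleGraph X) (s : ℕ) (blk : Fin 64 → Set (Fin s × Fin s))
    (arc : Fin 64 → Fin 4 → Set (Fin s × Fin s)) : Prop :=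
  ∀ (V : Type) (G : SimpleGraph V) (Y : Fin s × Fin s → Set V),
    (∀ p, (G.induce (Y p)).Connected) → (∀ p q, p ≠ q → Disjoint (Y p) (Y q)) →
    (∀ p q, (grid s).Adj p q → Touch G (Y p) (Y q)) → ∀ (k : Fin 64) (P Q : Set V),
    (G.induce P).Connected → (G.induce Q).Connected → Disjoint P Q →
    Disjoint P (UU Y (blk k)) → Disjoint Q (UU Y (blk k)) →
    Touch G P (UU Y (arc k 0)) → Touch G P (UU Y (arc k 2)) →
    Touch G Q (UU Y (arc k 1)) → Touch G Q (UU Y (arc k 3)) → IsMinor K G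

end Vale.Agent.P235.XC.H337
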