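import Vale.Agent.P235.H638.MonoQ

/-!
# LINE XC `[CORE]` (helper337): the minor `Q s` spelled out in sets
-/

namespace Vale.Agent.P235.XC.H337

open SimpleGraph Vale.Agent.P235.H134 Vale.Agent.P235.H56 Vale.Agent.P235.H141
open Vale.Agent.P235.H830

/-- a model of `Q s` in sets: the triangle `A`, the two further vertices `M`, the grid `Y` -/
structure QM {V : Type} (G : SimpleGraph V) (s : ℕ) (A : Fin 3 → Set V) (M : Fin 2 → Set V)
    (Y : Fin s × Fin s → Set V) : Prop where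
  connA : ∀ i, (G.induce (A i)).Connected
  connM : ∀ j, (G.induce (M j)).Connected
  connY : ∀ p, (G.induce (Y p)).Connected
  disjA : ∀ i j, i ≠ j → Disjoint (A i) (A j)
  disjM : ∀ i j, i ≠ j → Disjoint (M i) (M j)
  disjY : ∀ p q, p ≠ q → Disjoint (Y p) (Y q)
  disjAM : ∀ i j, Disjoint (A i) (M j)
  disjAY : ∀ i p, Disjoint (A i) (Y p)
  disjMY : ∀ j p, Disjoint (M j) (Y p)
  tAA : ∀ i j, i ≠ j → Touch G (A i) (A j)
  tAM : ∀ i j, Touch G (A i) (M j)
  tAY : ∀ i, ∀ p ∈ side s i, Touch G (A i) (Y p)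
  tYY : ∀ p q, (grid s).Adj p q → Touch G (Y p) (Y q)

theorem qm_of {V : Type} {G : SimpleGraph V} {s : ℕ} (h : IsMinor (Q s) G) :
    ∃ (A : Fin 3 → Set V) (M : Fin 2 → Set V) (Y : Fin s × Fin s → Set V), QM G s A M Y := by
  obtain ⟨φ, hc, hd, ha⟩ := h
  refine ⟨fun i => φ (Sum.inl (Sum.inl i)), fun j => φ (Sum.inl (Sum.inr j)),
    fun p => φ (Sum.inr p), ⟨fun i => hc _, fun j => hc _, fun p => hc _, fun i j h => hd _ _ ?_,
    fun i j h => hd _ _ ?_, fun p q h => hd _ _ ?_, fun i j => hd _ _ ?_, fun i p => hd _ _ ?_,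
    fun j p => hd _ _ ?_, fun i j h => ha _ _ (H638.Q_tri s h), fun i j => ha _ _ (H638.Q_two s i j),
    fun i p hp => ha _ _ (H638.Q_side hp), fun p q h => ha _ _ (H638.Q_grid h)⟩⟩
  · simpa using h
  · simpa using h
  · simpa using h
  · simp
  · simp
  · simp

end Vale.Agent.P235.XC.H337
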