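import Vale.Agent.P235.XC.H337.CDefs
import Vale.Agent.P235.XC.H337.QM
import Vale.Agent.P235.XC.H283.X7
import Vale.Agent.P235.XC.H487.Sel

/-!
# LINE XC `[CORE]` (helper337): the assembly

A 3-connected graph with property `(Q4)` and the minor `Q s` has the minor `K`.
-/

namespace Vale.Agent.P235.XC.H337

open SimpleGraph Vale.Agent.P235 Vale.Agent.P235.H134 Vale.Agent.P235.H56 Vale.Agent.P235.H141
open Vale.Agent.P235.H830

/-- a connected set off the outer neighbours of `D` with a vertex outside `D` misses `D` -/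
theorem conn_off {V : Type} {G : SimpleGraph V} {D Z : Set V} (hZ : (G.induce Z).Connected)
    (hn : Disjoint Z (nbr G D)) {x : V} (hx : x ∈ Z) (hxD : x ∉ D) : Disjoint Z D := by
  rw [Set.disjoint_left]
  intro z hz hzD
  have key : ∀ (a b : Z) (w : (G.induce Z).Walk a b), a.1 ∈ D → b.1 ∈ D := by
    intro a b w
    induction w with
    | nil => exact fun h => h
    | @cons a c b hadj _ ih =>
      intro ha
      refine ih ?_
      by_contra hc
      exact Set.disjoint_left.1 hn c.2 ⟨hc, a.1, ha, hadj⟩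
  obtain ⟨w⟩ := hZ.preconnected ⟨z, hz⟩ ⟨x, hx⟩
  exact hxD (key _ _ w hzD)

/-- the vertex of the triangle at the end -/
def ta : Fin 3 → Fin 3 := ![2, 1, 0]

/-- the lines of the three sets -/
def sg : Fin 4 → Fin 3 := ![0, 0, 1, 2]

theorem ta_sg : ∀ j, ta (sg j) = sd j := by decide

theorem ta_inj : ∀ i j, i ≠ j → ta i ≠ ta j := by decide

section
variable {V : Type} {G : SimpleGraph V} {s : ℕ} {blk : Fin 64 → Set (Fin s × Fin s)}
  {arc : Fin 64 → Fin 4 → Set (Fin s × Fin s)} {rt : Fin 64 → Fin 4 → Fin s × Fin s}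
  {ln : Fin 64 → Fin 4 → Set (Fin s × Fin s)}
  {A : Fin 3 → Set V} {M : Fin 2 → Set V} {Y : Fin s × Fin s → Set V}

/-- the three sets -/
def NN (A : Fin 3 → Set V) (Y : Fin s × Fin s → Set V) (ln : Fin 64 → Fin 4 → Set (Fin s × Fin s))
    (k : Fin 64) (i : Fin 3) : Set V :=
  {v | v ∈ A (ta i) ∨ ∃ j, sg j = i ∧ v ∈ UU Y (ln k j)}

/-- every block is crossed, or there is a cut -/
theorem cut_of [Finite V] {X : Type} {K : SimpleGraph X} (h1 : X1Stmt)
    (hB : Blk s blk arc rt ln) (h5 : X5At K s blk arc) (hK : ¬ IsMinor K G)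
    (hQ : QM G s A M Y) (k : Fin 64) :
    ∃ (D S : Set V) (x : Fin 4 → V), S.ncard ≤ 3 ∧ M 0 ⊆ D ∧ M 1 ⊆ D ∧
      Disjoint D (UU Y (blk k)) ∧ (∀ i, x i ∈ Y (rt k i) ∧ x i ∉ D) ∧
      nbr G D ⊆ S ∪ UU Y (blk k) ∧ Disjoint S (UU Y (blk k)) := by
  classical
  have hx : ∀ i, ∃ x, x ∈ Y (rt k i) ∧ ∃ y ∈ UU Y (arc k i), G.Adj x y := by
    intro i
    obtain ⟨a, ha, b, hb, hab⟩ := hB.rt_arc k i
    have ha' : a = rt k i := ha
    subst ha'
    obtain ⟨u, hu, v, hv, huv⟩ := hQ.tYY _ _ hab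
    exact ⟨u, hu, v, sub_UU hb hv, huv⟩
  choose x hxY hxa using hx
  have hxL : ∀ i, x i ∈ UU Y (ln k i) := fun i => sub_UU (hB.rt_ln k i) (hxY i)
  have hLc : ∀ i, (G.induce (UU Y (ln k i))).Connected := fun i =>
    UU_conn hQ.connY hQ.tYY (hB.ln_conn k i)
  have hLA : ∀ i, Touch G (A (sd i)) (UU Y (ln k i)) := by
    intro i
    obtain ⟨p, hp, hp'⟩ := hB.ln_side k i
    obtain ⟨u, hu, v, hv, huv⟩ := hQ.tAY _ _ hp'
    exact ⟨u, hu, v, sub_UU hp hv, huv⟩
  have hAL : ∀ i, (G.induce (A (sd i) ∪ UU Y (ln k i))).Connected := fun i =>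
    H578.conn_union (hQ.connA _) (hLc i) (hLA i)
  have hAUd : ∀ i Z, Disjoint (A i) (UU Y Z) := fun i Z =>
    (UU_disj' fun p _ => (hQ.disjAY i p).symm).symm
  have hMUd : ∀ j Z, Disjoint (M j) (UU Y Z) := fun j Z =>
    (UU_disj' fun p _ => (hQ.disjMY j p).symm).symm
  have hLL : ∀ i j, i ≠ j → Disjoint (UU Y (ln k i)) (UU Y (ln k j)) := fun i j h =>
    UU_disj hQ.disjY (hB.ln_disj k i j h)
  have e0 : NN A Y ln k 0 = (A 2 ∪ UU Y (ln k 0)) ∪ (A 2 ∪ UU Y (ln k 1)) := by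
    ext v
    constructor
    · rintro (h | ⟨j, hj, h⟩)
      · exact Or.inl (Or.inl h)
      · fin_cases j
        · exact Or.inl (Or.inr h)
        · exact Or.inr (Or.inr h)
        · exact absurd hj (by decide)
        · exact absurd hj (by decide)
    · rintro ((h | h) | (h | h))
      · exact Or.inl h
      · exact Or.inr ⟨0, rfl, h⟩
      · exact Or.inl h
      · exact Or.inr ⟨1, rfl, h⟩
  have e1 : NN A Y ln k 1 = A 1 ∪ UU Y (ln k 2) := by
    ext v
    constructor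
    · rintro (h | ⟨j, hj, h⟩)
      · exact Or.inl h
      · fin_cases j
        · exact absurd hj (by decide)
        · exact absurd hj (by decide)
        · exact Or.inr h
        · exact absurd hj (by decide)
    · rintro (h | h)
      · exact Or.inl h
      · exact Or.inr ⟨2, rfl, h⟩
  have e2 : NN A Y ln k 2 = A 0 ∪ UU Y (ln k 3) := by
    ext v
    constructor
    · rintro (h | ⟨j, hj, h⟩)
      · exact Or.inl h
      · fin_cases j
        · exact absurd hj (by decide)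
        · exact absurd hj (by decide)
        · exact absurd hj (by decide)
        · exact Or.inr h
    · rintro (h | h)
      · exact Or.inl h
      · exact Or.inr ⟨3, rfl, h⟩
  have hNc : ∀ i, (G.induce (NN A Y ln k i)).Connected := by
    intro i
    fin_cases i
    · show (G.induce (NN A Y ln k 0)).Connected
      rw [e0]
      obtain ⟨⟨a, ha⟩⟩ := (hQ.connA 2).nonempty
      exact H578.conn_union' (hAL 0) (hAL 1) ⟨a, Or.inl ha, Or.inl ha⟩
    · show (G.induce (NN A Y ln k 1)).Connected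
      rw [e1]
      exact hAL 2
    · show (G.induce (NN A Y ln k 2)).Connected
      rw [e2]
      exact hAL 3
  have hNd : ∀ i j, i ≠ j → Disjoint (NN A Y ln k i) (NN A Y ln k j) := by
    intro i j hij
    rw [Set.disjoint_left]
    rintro v (h | ⟨a, ha, h⟩) (h' | ⟨b, hb, h'⟩)
    · exact Set.disjoint_left.1 (hQ.disjA _ _ (ta_inj i j hij)) h h'
    · exact Set.disjoint_left.1 (hAUd _ _) h h'
    · exact Set.disjoint_left.1 (hAUd _ _) h' h
    · refine Set.disjoint_left.1 (hLL a b ?_) h h'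
      rintro rfl
      exact hij (ha.symm.trans hb)
  have hNM : ∀ i j, Disjoint (NN A Y ln k i) (M j) := by
    intro i j
    rw [Set.disjoint_left]
    rintro v (h | ⟨a, ha, h⟩) h'
    · exact Set.disjoint_left.1 (hQ.disjAM _ _) h h'
    · exact Set.disjoint_left.1 (hMUd _ _) h' h
  have hNB : ∀ i, Disjoint (NN A Y ln k i) (UU Y (blk k)) := by
    intro i
    rw [Set.disjoint_left]
    rintro v (h | ⟨a, ha, h⟩) h'
    · exact Set.disjoint_left.1 (hAUd _ _) h h'
    · exact Set.disjoint_left.1 (UU_disj hQ.disjY (hB.ln_blk k a)) h h'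
  have hNT : ∀ i j, Touch G (NN A Y ln k i) (M j) := by
    intro i j
    obtain ⟨u, hu, v, hv, huv⟩ := hQ.tAM (ta i) j
    exact ⟨u, Or.inl hu, v, hv, huv⟩
  have hxN : ∀ i, x i ∈ NN A Y ln k (sg i) := fun i => Or.inr ⟨i, rfl, hxL i⟩
  have hx01 : x 0 ≠ x 1 := by
    intro h
    exact Set.disjoint_left.1 (hLL 0 1 (by decide)) (hxL 0) (h ▸ hxL 1)
  have hT : ∀ {P : Set V} (i : Fin 4), x i ∈ P → Touch G P (UU Y (arc k i)) := by
    intro P i hi
    obtain ⟨y, hy, hxy⟩ := hxa i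
    exact ⟨x i, hi, y, hy, hxy⟩
  rcases h1 V G (UU Y (blk k)) (NN A Y ln k) M x hNc hQ.connM hNd hQ.disjM hNM hNB
    (fun j => hMUd j _) hNT (hxN 0) (hxN 1) hx01 (hxN 2) (hxN 3) with
    ⟨P, Q, p1, p2, p3, p4, p5, p6, p7, p8, p9⟩ | ⟨D, S, d1, d2, d3, d4, d5, d6⟩
  · exact absurd (h5 V G Y hQ.connY hQ.disjY hQ.tYY k P Q p1 p2 p3 p4 p5 (hT 0 p6) (hT 2 p7)
      (hT 1 p8) (hT 3 p9)) hK
  · refine ⟨D, S \ UU Y (blk k), x, (Set.ncard_le_ncard Set.sdiff_subset (Set.toFinite _)).trans d1,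
      d2, d3, d4, fun i => ⟨hxY i, d5 i⟩, ?_, Set.disjoint_sdiff_left⟩
    intro v hv
    by_cases hvB : v ∈ UU Y (blk k)
    · exact Or.inr hvB
    · rcases d6 hv with h | h
      · exact Or.inl ⟨h, hvB⟩
      · exact absurd h hvB

/-- 3-connected graphs with `(Q4)` and the minor `Q s` have the minor `K` -/
theorem core_q [Finite V] {X : Type} {K : SimpleGraph X} (h1 : X1Stmt)
    (hB : Blk s blk arc rt ln) (h5 : X5At K s blk arc) (h3 : Conn3 G)
    (h4 : ∀ X : Set V, (nbr G X).ncard ≤ 3 → X.ncard ≤ 1 ∨ ((X ∪ nbr G X)ᶜ).ncard ≤ 1)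
    (hm : IsMinor (Q s) G) : IsMinor K G := by
  classical
  by_contra hK
  obtain ⟨A, M, Y, hQ⟩ := qm_of hm
  have hc := cut_of h1 hB h5 hK hQ
  choose D S x hS hM0 hM1 hDB hx hN hSB using hc
  have hBB : ∀ k l, k ≠ l → Disjoint (UU Y (blk k)) (UU Y (blk l)) := fun k l h =>
    UU_disj hQ.disjY (hB.disj k l h)
  obtain ⟨f, hf, hfS⟩ := H487.select 8 (by simp) S (fun k => UU Y (blk k))
    (fun i => Set.toFinite _) hS hBB
  have hoff : ∀ k l, Disjoint (S k) (UU Y (blk l)) →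
      Disjoint {p | ¬ Disjoint (Y p) (S k)} (blk l) := by
    intro k l h
    rw [Set.disjoint_left]
    intro p hp hpl
    obtain ⟨v, hv, hvS⟩ := Set.not_disjoint_iff.1 hp
    exact Set.disjoint_left.1 h hvS (sub_UU hpl hv)
  have hfar : ∀ k l, k ≠ l → Disjoint (S k) (UU Y (blk l)) → Disjoint (D k) (UU Y (blk l)) := by
    intro k l hkl hSl
    obtain ⟨i, Z, z1, z2, z3, z4, z5⟩ := hB.far k l hkl {p | ¬ Disjoint (Y p) (S k)}
      ((ncard_meet (Y := Y) (Set.toFinite (S k)) (fun x _ y _ h => hQ.disjY x y h)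
        (fun x hx => hx)).trans (hS k)) (hoff k k (hSB k)) (hoff k l hSl)
    have hZ := UU_conn hQ.connY hQ.tYY z1
    have h6 : Disjoint (UU Y Z) (nbr G (D k)) := by
      refine Set.disjoint_left.2 fun v hv hvn => ?_
      rcases hN k hvn with h | h
      · obtain ⟨p, hp, hvp⟩ := mem_UU.1 hv
        exact Set.disjoint_left.1 z5 hp (Set.not_disjoint_iff.2 ⟨v, hvp, h⟩)
      · exact Set.disjoint_left.1 (UU_disj hQ.disjY z4) hv h
    exact ((conn_off hZ h6 (sub_UU z2 (hx k i).1) (hx k i).2).mono_left (UU_mono z3)).symm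
  refine H283.unc8 (fun i => UU Y (blk (f i))) (fun i => S (f i)) (fun i => D (f i)) (M 0 ∪ M 1)
    h3 h4 (fun i => hS _) (fun i j h => hBB _ _ fun h' => h (hf h')) hfS ?_ (fun i => hN _) ?_
    (fun i => Set.union_subset (hM0 _) (hM1 _)) ?_
  · intro i j
    by_cases h : i = j
    · subst h
      exact hDB _
    · exact hfar _ _ (fun h' => h (hf h')) (hfS i j h)
  · obtain ⟨⟨a, ha⟩⟩ := (hQ.connM 0).nonempty
    obtain ⟨⟨b, hb⟩⟩ := (hQ.connM 1).nonempty
    have hab : a ≠ b := by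
      rintro rfl
      exact Set.disjoint_left.1 (hQ.disjM 0 1 (by decide)) ha hb
    have h2 : ({a, b} : Set V).ncard ≤ (M 0 ∪ M 1).ncard := by
      refine Set.ncard_le_ncard ?_ (Set.toFinite _)
      rintro v (rfl | rfl)
      · exact Or.inl ha
      · exact Or.inr hb
    rwa [Set.ncard_pair hab] at h2
  · refine (hB.card (f 0)).trans (ncard_UU hQ.disjY fun p => ?_)
    obtain ⟨⟨v, hv⟩⟩ := (hQ.connY p).nonempty
    exact ⟨v, hv⟩

end

end Vale.Agent.P235.XC.H337
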