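import Vale.Agent.P235.XC.H337.X9
import Vale.Agent.P235.XC.H531.X1
import Vale.Agent.P235.XC.H666.Geo
import Vale.Agent.P235.XC.H76.Blocks
import Vale.Agent.P235.XC.H456.Sep
import Vale.Agent.P235.XC.H831.Cross

/-!
# LINE XC (helper337): `CoreStmt` without hypotheses
-/

namespace Vale.Agent.P235.XC.H337

/-- 3-connected graphs with `(Q4)` and the minor `Q (RX r)` have the minor `TX r` -/
theorem coreStmt : CoreStmt :=
  core H531.cross H666.geo H76.blocks H456S.sep H831.crossTX

end Vale.Agent.P235.XC.H337
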