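import Vale.Agent.P235.XC.Defs
import Vale.Agent.P235.XC.H337.Core

/-!
# LINE XC `[X9]` (helper337): `CoreStmt` from the rows
-/

namespace Vale.Agent.P235.XC.H337

open SimpleGraph Vale.Agent.P235 Vale.Agent.P235.H134 Vale.Agent.P235.H56 Vale.Agent.P235.H141
open Vale.Agent.P235.H830

theorem x1_of (h : CrossStmt) : X1Stmt := by
  intro V _ G B N M x hN hM hNN hMM hNM hNB hMB hT h0 h1 _ h2 h3
  rcases h V G B x N M ⟨hN, hM, hNN, hMM 0 1 (by decide), hNM, hNB, hMB, hT, h0, h1, h2, h3⟩ with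
    h | ⟨S, D, d1, d2, d3, -, d5, d6⟩
  · exact Or.inl h
  · exact Or.inr ⟨D, S, d1, Set.subset_union_left.trans d2, Set.subset_union_right.trans d2, d3,
      d5, d6⟩

theorem blk_of {r : ℕ} (hr : 2 ≤ r) (hB : BlocksStmt) (hS : SepStmt)
    {rt : Fin 64 → Fin 4 → Pos r} {inn : Fin 64 → Fin r × Fin r → Pos r}
    (hG : ∀ k, Geo r k (rt k) (inn k)) :
    Blk (RX r) (blkX r) (arcX r) rt (linX r) := by
  obtain ⟨b1, b2, b3⟩ := hB r hr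
  refine ⟨b2, b3, fun k i => ?_, fun k i => (hG k).lin_root i, fun k i => (hG k).lin_conn i,
    fun k i => (hG k).lin_blk i k, fun k i j h => (hG k).lin_disj i j h, fun k i => ?_, ?_⟩
  · obtain ⟨p, hp, hp'⟩ := (hG k).arc_root i
    exact ⟨_, rfl, p, hp, hp'⟩
  · obtain ⟨⟨p0, a0, c0⟩, ⟨p1, a1, c1⟩, ⟨p2, a2, c2⟩, ⟨p3, a3, c3⟩⟩ := (hG k).lin_end
    fin_cases i
    · exact ⟨p0, a0, Or.inr (Or.inr ⟨rfl, Or.inr c0⟩)⟩
    · exact ⟨p1, a1, Or.inr (Or.inr ⟨rfl, Or.inl c1⟩)⟩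
    · exact ⟨p2, a2, Or.inr (Or.inl ⟨rfl, c2⟩)⟩
    · exact ⟨p3, a3, Or.inl ⟨rfl, c3⟩⟩
  · intro k l hkl T hT _ hTl
    obtain ⟨i, Z, z1, z2, -, z4, z5, z6⟩ := hS r hr k l hkl T hT hTl
    obtain ⟨p, hp, hpl⟩ := z4
    refine ⟨i, Z ∪ blkX r l, H578.conn_union' z1 (b1 l) ⟨p, hp, hpl⟩,
      Or.inl (z2 _ ((hG k).root i)), Set.subset_union_right,
      Set.disjoint_union_left.2 ⟨z5, b2 _ _ hkl.symm⟩,
      Set.disjoint_union_left.2 ⟨z6, hTl.symm⟩⟩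

theorem x5_of {r : ℕ} (hr : 2 ≤ r) (hX : CrossTXStmt)
    {rt : Fin 64 → Fin 4 → Pos r} {inn : Fin 64 → Fin r × Fin r → Pos r}
    (hG : ∀ k, Geo r k (rt k) (inn k)) :
    X5At (TX r) (RX r) (blkX r) (arcX r) := by
  intro V G Y hYc hYd hYt k P Q hP hQ hPQ hPB hQB h0 h2 h1 h3
  obtain ⟨v0, p0, u0, q0, e0⟩ := h0
  obtain ⟨v1, p1, u1, q1, e1⟩ := h1
  obtain ⟨v2, p2, u2, q2, e2⟩ := h2
  obtain ⟨v3, p3, u3, q3, e3⟩ := h3
  refine hX V G r k (rt k) (inn k) Y ![v0, v1, v2, v3] hr (hG k) hYc hYd hYt (fun i => ?_)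
    ⟨P, Q, hP, hQ, hPQ, hPB, hQB, p0, p2, p1, p3⟩
  fin_cases i
  · exact ⟨u0, q0, e0⟩
  · exact ⟨u1, q1, e1⟩
  · exact ⟨u2, q2, e2⟩
  · exact ⟨u3, q3, e3⟩

/-- **[X9]** the core, from the rows -/
theorem core (hC : CrossStmt) (hG : GeoStmt) (hB : BlocksStmt) (hS : SepStmt)
    (hX : CrossTXStmt) : CoreStmt := by
  intro r hr V _ G h3 h4 hm
  have h := hG r hr
  choose rt inn hG' using h
  exact core_q (x1_of hC) (blk_of hr hB hS hG') (x5_of hr hX hG') h3 h4 hm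

end Vale.Agent.P235.XC.H337
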